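import Mathlib

namespace Vale.Agent.Lib.P314

/-- Noncommutative formulas over `F` in the variables `x_0, ..., x_{n-1}`: binary trees whose
leaves are variables or scalars and whose internal vertices are addition or multiplication
gates with ordered inputs. -/
inductive NCFormula (F : Type*) (n : ℕ) : Type _
  | var : Fin n → NCFormula F n
  | const : F → NCFormula F n
  | add : NCFormula F n → NCFormula F n → NCFormula F n
  | mul : NCFormula F n → NCFormula F n → NCFormula F n

namespace NCFormula

variable {F : Type*} {n : ℕ}

/-- The size of a formula: its total number of vertices, leaves included. -/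
def size : NCFormula F n → ℕ
  | var _ => 1
  | const _ => 1
  | add f g => f.size + g.size + 1
  | mul f g => f.size + g.size + 1

/-- The noncommutative polynomial (element of the free associative algebra) computed by a
formula. -/
def toPoly [CommSemiring F] : NCFormula F n → FreeAlgebra F (Fin n)
  | var i => FreeAlgebra.ι F i
  | const c => algebraMap F (FreeAlgebra F (Fin n)) c
  | add f g => f.toPoly + g.toPoly
  | mul f g => f.toPoly * g.toPoly

end NCFormula

/-- A finite set `H` of matrix tuples (each tuple comes with its own dimension `d`) is a hitting
set for the polynomials computed by formulas of size at most `s` in `n` variables: every such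
polynomial that is nonzero has a nonzero ordered matrix evaluation at some tuple of `H`. -/
def IsHittingSet {F : Type*} [Field F] {n : ℕ}
    (H : Finset (Sigma fun d : ℕ => Fin n → Matrix (Fin d) (Fin d) F)) (s : ℕ) : Prop :=
  ∀ φ : NCFormula F n, φ.size ≤ s → φ.toPoly ≠ 0 →
    ∃ T ∈ H, FreeAlgebra.lift F T.2 φ.toPoly ≠ 0

end Vale.Agent.Lib.P314
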