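import Vale.Agent.Lib.P314.Defs

namespace Vale.Agent.Lib.P314

open Polynomial

variable {F : Type*} [Field F] {n : ℕ}

/-- Horner formula for `X ^ m + q` with `deg q < m`, of size at most `4 m - 1`. -/
theorem exists_formula_X_pow_add (i : Fin n) :
    ∀ m : ℕ, 1 ≤ m → ∀ q : F[X], q.natDegree < m →
      ∃ φ : NCFormula F n, φ.size + 1 ≤ 4 * m ∧
        φ.toPoly = aeval (FreeAlgebra.ι F i) (X ^ m + q) := by
  intro m hm
  induction m, hm using Nat.le_induction with
  | base =>
    intro q hq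
    have hq0 : q.natDegree = 0 := by omega
    obtain ⟨c, rfl⟩ : ∃ c, q = C c := ⟨q.coeff 0, Polynomial.eq_C_of_natDegree_eq_zero hq0⟩
    refine ⟨NCFormula.add (NCFormula.var i) (NCFormula.const c), ?_, ?_⟩
    · simp [NCFormula.size]
    · simp [NCFormula.toPoly]
  | succ m hm ih =>
    intro q hq
    have hd : q.divX.natDegree < m := by
      rw [Polynomial.natDegree_divX_eq_natDegree_tsub_one]
      omega
    obtain ⟨ψ, hψs, hψ⟩ := ih q.divX hd
    refine ⟨NCFormula.add (NCFormula.mul (NCFormula.var i) ψ) (NCFormula.const (q.coeff 0)),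
      ?_, ?_⟩
    · simp only [NCFormula.size]
      omega
    · have hq' : X ^ (m + 1) + q = X * (X ^ m + q.divX) + C (q.coeff 0) := by
        conv_lhs => rw [← Polynomial.X_mul_divX_add q]
        ring
      rw [hq']
      simp only [NCFormula.toPoly, hψ, map_add, map_mul, aeval_X, aeval_C]

/-- Every monic polynomial of degree `m` is computed, in the variable `x_i`, by a formula of
size at most `max 1 (4 m - 1)`. -/
theorem exists_formula_monic (i : Fin n) (p : F[X]) (hp : p.Monic) :
    ∃ φ : NCFormula F n, (φ.size = 1 ∨ φ.size + 1 ≤ 4 * p.natDegree) ∧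
      φ.toPoly = aeval (FreeAlgebra.ι F i) p := by
  rcases Nat.eq_zero_or_pos p.natDegree with h0 | hpos
  · have hp1 : p = 1 := hp.natDegree_eq_zero.mp h0
    refine ⟨NCFormula.const 1, Or.inl rfl, ?_⟩
    simp [NCFormula.toPoly, hp1]
  · have hlt : (p - X ^ p.natDegree).natDegree < p.natDegree := by
      apply IsMonicOfDegree.natDegree_sub_lt (n := p.natDegree) (by omega)
      · exact ⟨rfl, hp⟩
      · exact isMonicOfDegree_X_pow F p.natDegree
    obtain ⟨φ, hs, hφ⟩ := exists_formula_X_pow_add i p.natDegree hpos _ hlt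
    refine ⟨φ, Or.inr hs, ?_⟩
    rw [hφ]
    congr 1
    ring

theorem aeval_ι_ne_zero (i : Fin n) (p : F[X]) (hp : p ≠ 0) :
    aeval (FreeAlgebra.ι F i) p ≠ 0 := by
  intro h
  apply hp
  have h2 := congrArg (FreeAlgebra.lift F (fun _ : Fin n => (X : F[X]))) h
  rw [← Polynomial.aeval_algHom_apply, FreeAlgebra.lift_ι_apply, map_zero] at h2
  simpa using h2

/-- Any hitting set for formulas of size at most `s` has total dimension at least `(s+2)/4`. -/
theorem dim_bound (hn : 0 < n) {s : ℕ} (hs : 1 ≤ s)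
    (H : Finset (Sigma fun d : ℕ => Fin n → Matrix (Fin d) (Fin d) F))
    (hH : IsHittingSet H s) : s + 2 ≤ 4 * ∑ T ∈ H, T.1 := by
  classical
  by_contra hcon
  rw [not_le] at hcon
  set i0 : Fin n := ⟨0, hn⟩
  set p : F[X] := ∏ T ∈ H, (T.2 i0).charpoly with hpdef
  have hmonic : p.Monic := Polynomial.monic_prod_of_monic _ _ (fun T _ => Matrix.charpoly_monic _)
  have hdeg : p.natDegree = ∑ T ∈ H, T.1 := by
    rw [hpdef, Polynomial.natDegree_prod_of_monic _ _ (fun T _ => Matrix.charpoly_monic _)]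
    apply Finset.sum_congr rfl
    intro T _
    simp
  obtain ⟨φ, hsize, hφ⟩ := exists_formula_monic (n := n) i0 p hmonic
  have hsz : φ.size ≤ s := by
    rcases hsize with h | h
    · omega
    · rw [hdeg] at h
      omega
  have hne : φ.toPoly ≠ 0 := by
    rw [hφ]
    exact aeval_ι_ne_zero i0 p hmonic.ne_zero
  obtain ⟨T, hT, hTne⟩ := hH φ hsz hne
  apply hTne
  rw [hφ, ← Polynomial.aeval_algHom_apply, FreeAlgebra.lift_ι_apply]
  obtain ⟨r, hr⟩ := Finset.dvd_prod_of_mem (fun T : (Sigma fun d : ℕ => Fin n → Matrix (Fin d) (Fin d) F) =>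
    (T.2 i0).charpoly) hT
  rw [hpdef, hr, map_mul, Matrix.aeval_self_charpoly, zero_mul]

end Vale.Agent.Lib.P314
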